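import Vale.Agent.P352X.R.Br
import Vale.Agent.P352X.R.LIE
import Vale.Agent.P352.H746.Flow
import Vale.Agent.P352.H148.Bdd

/-!
# P352X, row GEN: product rule, fields as continuous linear maps, flows
-/

set_option linter.all false

noncomputable section

open Filter Topology Asymptotics
open scoped SchwartzMap

namespace Vale.Agent.P352X

open Vale.Agent.P352 Vale.Agent.P352.GF Vale.Agent.P352.BW Vale.Agent.P352.H246
open Vale.Agent.P352.H496 Vale.Agent.P352.H755 Vale.Agent.P352.H15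
open H746 (Crv vf vfS fl_vfS sum_one)
open H148 (Od)
open UniformSpace (Completion)
open Complex (I)

namespace Gen

section hilbert

variable {H : Type*} [NormedAddCommGroup H] [InnerProductSpace ℂ H]

/-- the product rule for strongly continuous families of contractions -/
theorem prodF {X : Type*} [NormedAddCommGroup X] [NormedSpace ℝ X] [FiniteDimensional ℝ X]
    {W : X → H →L[ℂ] H} {φ : X → H} {φ' ψ' : X →L[ℝ] H} {x : X} (hb : ∀ y z, ‖W y z‖ ≤ ‖z‖)
    (hc : ∀ z, ContinuousAt (fun y => W y z) x) (h0 : W x = 1) (hφ : HasFDerivAt φ φ' x)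
    (hψ : HasFDerivAt (fun y => W y (φ x)) ψ' x) :
    HasFDerivAt (fun y => W y (φ y)) (ψ' + φ') x := by
  have a : ContinuousAt (fun y => ((W y).restrictScalars ℝ).comp φ') x :=
    continuousAt_clm_apply.2 fun y => hc _
  have b : (fun y => ((W y).restrictScalars ℝ).comp φ' - φ') =o[𝓝 x] fun _ => (1 : ℝ) := by
    refine (isLittleO_one_iff ℝ).2 (tendsto_sub_nhds_zero_iff.2 ?_)
    have := a.tendsto
    rwa [h0] at this
  have d : (fun y => (((W y).restrictScalars ℝ).comp φ' - φ') (y - x)) =o[𝓝 x] fun y => y - x := by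
    refine IsLittleO.of_norm_right ((IsBigO.of_norm_le fun y =>
      ContinuousLinearMap.le_opNorm _ _).trans_isLittleO ?_)
    simpa using b.norm_left.mul_isBigO (isBigO_refl (fun y => ‖y - x‖) (𝓝 x))
  rw [hasFDerivAt_iff_isLittleO] at hφ hψ ⊢
  refine ((((IsBigO.of_norm_le fun y => hb y _).trans_isLittleO hφ.norm_left).add d).add
    hψ).congr_left fun y => ?_
  simp [h0]
  abel

theorem prod1 {W : ℝ → H →L[ℂ] H} {φ : ℝ → H} {φ' ψ' : H} {x : ℝ} (hb : ∀ y z, ‖W y z‖ ≤ ‖z‖)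
    (hc : ∀ z, ContinuousAt (fun y => W y z) x) (h0 : W x = 1) (hφ : HasDerivAt φ φ' x)
    (hψ : HasDerivAt (fun y => W y (φ x)) ψ' x) : HasDerivAt (fun y => W y (φ y)) (ψ' + φ') x := by
  simpa using (prodF hb hc h0 hφ.hasFDerivAt hψ.hasFDerivAt).hasDerivAt

end hilbert

variable {D : Type*} [NormedAddCommGroup D] [InnerProductSpace ℂ D] {c : Ctx D}

theorem od (c : Ctx D) (m n : Ix) : Od (c.T m n) (c.T m n) :=
  have h := c.Q.bose_fld _ (c.hT.bose m n)
  ⟨fun f g a v hf hg => c.Q.lin _ f g a v h hf hg, fun v => c.Q.cont _ v h, c.hT.herm m n⟩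

/-- the components of `T` as continuous linear maps -/
def tl (c : Ctx D) (v : D) (m n : Ix) : 𝓢(Mink, ℂ) →L[ℂ] Completion D where
  toFun F := (c.T m n (fl F) v : D)
  map_add' F G := by rw [(od c m n).addf, Completion.coe_add]
  map_smul' a F := by rw [(od c m n).smulf, Completion.coe_smul, RingHom.id_apply]
  cont := (Completion.continuous_coe D).comp ((od c m n).contS v)

theorem tl_apply (v : D) (m n : Ix) (F : 𝓢(Mink, ℂ)) :
    tl c v m n F = (c.T m n (fl F) v : D) := rfl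

/-- `T(h, k)` as a continuous linear map -/
def th (c : Ctx D) (v : D) (h k : V) : 𝓢(Mink, ℂ) →L[ℂ] Completion D :=
  ∑ m, ∑ n, ((eta m * h m * (eta n * k n) : ℝ) : ℂ) • tl c v m n

theorem th_apply (v : D) (h k : V) (F : 𝓢(Mink, ℂ)) :
    th c v h k F = (c.Tf (hk h k (fl F)) v : D) := by
  rw [Ctx.Tf, ← Completion.coe_toComplL (𝕜 := ℂ)]
  simp only [th, map_sum, ContinuousLinearMap.sum_apply, ContinuousLinearMap.smul_apply, ← map_smul]
  rfl

/-- the trace as a continuous linear map -/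
def tt (c : Ctx D) (v : D) : 𝓢(Mink, ℂ) →L[ℂ] Completion D := ∑ m, (eta m : ℂ) • tl c v m m

theorem tt_apply (v : D) (F : 𝓢(Mink, ℂ)) : tt c v F = (c.Thf (fl F) v : D) := by
  rw [Ctx.Thf, GF.tr, ← Completion.coe_toComplL (𝕜 := ℂ)]
  simp only [tt, map_sum, map_smul, ContinuousLinearMap.sum_apply, ContinuousLinearMap.smul_apply]
  rfl

theorem l_add (F G : 𝓢(Mink, ℂ)) (a : ℂ) : c.l (fl (F + a • G)) = c.l (fl F) + a • c.l (fl G) :=
  fl_add_smul F G a ▸ c.hl.lin _ _ a (isTest_fl F) (isTest_fl G)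

/-- the potential as a continuous linear map -/
def ll (c : Ctx D) : 𝓢(Mink, ℂ) →L[ℂ] Completion D where
  toFun F := c.l (fl F)
  map_add' F G := by simpa using l_add (c := c) F G 1
  map_smul' a F := by
    have h : c.l (fl 0) = 0 := by simpa using l_add (c := c) 0 0 1
    simpa [h] using l_add (c := c) 0 F a
  cont := c.hl.cont.comp toSchL.continuous

theorem der_hk (v : D) {f : Fn} (hf : GF.IsTest f) {h k : ℝ → V} {h' k' : V} {x : ℝ}
    (hh : ∀ m, HasDerivAt (fun e => h e m) (h' m) x)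
    (hk' : ∀ m, HasDerivAt (fun e => k e m) (k' m) x) :
    HasDerivAt (fun e => ((c.Tf (hk (h e) (k e) f) v : D) : Completion D))
      ((c.Tf (hk h' (k x) f) v : D) + (c.Tf (hk (h x) k' f) v : D)) x := by
  obtain ⟨F, rfl⟩ := exists_fl hf
  simp only [← th_apply, th, ContinuousLinearMap.sum_apply, ContinuousLinearMap.smul_apply,
    ← Finset.sum_add_distrib, ← add_smul, ← Complex.ofReal_add, Complex.coe_smul]
  exact HasDerivAt.fun_sum fun m _ => HasDerivAt.fun_sum fun n _ =>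
    (((hh m).const_mul _).fun_mul ((hk' n).const_mul _)).smul_const _

/-- `W` is a curve of Poincare transformations with velocity field `X` -/
def Fl (c : Ctx D) (W : ℝ → Completion D →L[ℂ] Completion D) (X : V → V) : Prop :=
  ∃ L a w b, Crv (fun _ => 1) L a w 0 b ∧ (∀ e, W e = Ug c.Q 1 (L e) (a e)) ∧
    ∀ z n, X z n = b n + 0 * z n + ∑ m, z m * w m n

theorem sim_bas (L : Ix → V) (m : Ix) : sim 1 L 0 (GF.one m) = L m := by
  funext n
  simp [sim, GF.one, bas]

theorem fl_lin {W : ℝ → Completion D →L[ℂ] Completion D} {L : ℝ → Ix → V} {σ : ℝ → V → V}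
    {X : V → V} (hW : ∀ e, W e = Ug c.Q 1 (L e) 0)
    (hL : ∀ e, IsLor (L e) ∧ ∀ z, sim 1 (L e) 0 z = σ e z) (h0 : ∀ z, σ 0 z = z)
    (hd : ∀ z, HasDerivAt (fun e => σ e z) (X z) 0) : Fl c W X := by
  have e : ∀ t m, L t m = σ t (GF.one m) := fun t m => by rw [← (hL t).2, sim_bas]
  have K : Crv (fun _ => 1) L (fun _ => 0) (fun m => X (GF.one m)) 0 0 :=
    ⟨rfl, funext fun m => by rw [e, h0], rfl, fun _ => one_pos, fun t => (hL t).1,
      hasDerivAt_const _ _, fun m n => by simpa only [e] using hasDerivAt_pi.1 (hd _) n,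
      fun _ => hasDerivAt_const _ _⟩
  refine ⟨_, _, _, _, K, hW, fun z n => (hasDerivAt_pi.1 (hd z) n).unique ?_⟩
  simpa only [(hL _).2] using K.dX (X := fun z n => _) (fun _ _ => rfl) n z

theorem ug_norm (g : GRP c) (s L a z) : ‖Ug c.Q s L a z‖ = ‖z‖ :=
  ContinuousLinearMap.norm_map_of_mem_unitary (g.uni s L a) z

namespace Fl

variable {W : ℝ → Completion D →L[ℂ] Completion D} {X : V → V} (K : Fl c W X) (g : GRP c)
include K g

theorem norm (e z) : ‖W e z‖ ≤ ‖z‖ := by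
  obtain ⟨L, a, w, b, K, hW, -⟩ := K
  rw [hW, ug_norm g]

theorem zero : W 0 = 1 := by
  obtain ⟨L, a, w, b, K, hW, -⟩ := K
  rw [hW, K.L0, K.a0]
  exact g.ut0

theorem cont (z) : ContinuousAt (fun e => W e z) 0 := by
  obtain ⟨L, a, w, b, K, hW, -⟩ := K
  simp only [hW]
  exact g.cont _ _ _ _ _ _ _ _ z (fun e => ⟨one_pos, K.lor e⟩) one_pos (K.lor 0) tendsto_const_nhds
    (continuousAt_pi.2 fun m => continuousAt_pi.2 fun n => (K.dL m n).continuousAt)
    (continuousAt_pi.2 fun n => (K.da n).continuousAt)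

theorem dom (v : D) : HasDerivAt (fun e => W e v) ((I • c.A X v : D) : Completion D) 0 := by
  obtain ⟨L, a, w, b, K, hW, hX⟩ := K
  simp only [hW, fun e => g.coe 1 (L e) (a e) v one_pos (K.lor e)]
  exact ((Completion.toComplL (𝕜 := ℂ)).restrictScalars ℝ).hasFDerivAt.comp_hasDerivAt 0
    (c.hN.der _ L a X v rfl K.L0 K.a0 (fun e => ⟨one_pos, K.lor e⟩) (K.dX hX))

omit g in
theorem test {f : Fn} (hf : GF.IsTest f) : GF.IsTest (vf X f) := by
  obtain ⟨L, a, w, b, -, -, hX⟩ := K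
  obtain ⟨F, rfl⟩ := exists_fl hf
  exact fl_vfS hX F ▸ isTest_fl _

/-- the generator on covariant distributions -/
theorem core (Λ : Fn → Completion D) (l : 𝓢(Mink, ℂ) →L[ℂ] Completion D)
    (hl : ∀ F, l F = Λ (fl F)) {f : Fn} (hf : GF.IsTest f) (Ψ : (Ix → V) → Completion D)
    (hc : ∀ L a, IsLor L → Ug c.Q 1 L a (Λ fun x => f (sim 1 L a x)) = Ψ L) {ψ : Completion D}
    (hψ : ∀ L : ℝ → Ix → V, L 0 = GF.one →
      (∀ h n, HasDerivAt (fun e => sim 1 (L e) 0 h n) ((X h - X 0) n) 0) →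
      HasDerivAt (fun e => Ψ (L e)) ψ 0) : Gn W (Λ f) (I • (Λ (vf X f) - ψ)) := by
  have p := fun (φ : ℝ → Completion D) φ' (h : HasDerivAt φ φ' 0) (h0 : φ 0 = 0) =>
    prod1 (K.norm g) (K.cont g) (K.zero g) h (ψ' := 0) (by simpa [h0] using hasDerivAt_const _ _)
  obtain ⟨L, a, w, b, K, hW, hX⟩ := K
  obtain ⟨F, rfl⟩ := exists_fl hf
  have e : ∀ t, fl (K.cs F t) = fun x => fl F (sim 1 (L t) (a t) x) := fun t =>
    funext fun x => simS_apply _ _ _ _ _ _
  have q := (hψ L K.L0 fun h n => ?_).sub (p _ _ ((K.der (l.restrictScalars ℝ) F).sub_const (l F))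
    (by simp [K.cs_zero]))
  · rw [Gn, smul_smul, Complex.I_mul_I, neg_one_smul, neg_sub, ← fl_vfS hX, ← hl, ← hl]
    convert q using 1
    · funext t
      have := hc _ (a t) (K.lor t)
      rw [← e, ← hl] at this
      simp [← this, hW]
    · simp
  · simpa [sim, hX] using
      HasDerivAt.fun_sum fun m (_ : m ∈ Finset.univ) => (K.dL m n).const_mul (h m)

theorem tv (h k : V) {f : Fn} (hf : GF.IsTest f) : Gn W (c.Tv (hk h k f))
    (I • (c.Tv (hk h k (vf X f)) - c.Tv (hk (X h - X 0) k f) - c.Tv (hk h (X k - X 0) f))) := by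
  rw [sub_sub]
  refine K.core g (fun f => c.Tv (hk h k f)) (th c _ h k) (th_apply _ h k) hf
    (fun L => c.Tv (hk (sim 1 L 0 h) (sim 1 L 0 k) f)) (fun L a hL => ?_) fun L L0 hd => ?_
  · rw [Ctx.Tv, g.coe _ _ _ _ one_pos hL, g.ten _ _ _ _ _ _ _ one_pos hL hf,
      c.Q.U_vac _ _ _ one_pos hL, Ctx.Tv]
  · have := der_hk (c := c) c.Q.vac hf (hd h) (hd k)
    simp only [L0, sim_one, Pi.zero_apply, zero_add] at this
    exact this

theorem tr {f : Fn} (hf : GF.IsTest f) : Gn W (c.Th f) (I • c.Th (vf X f)) := by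
  have := K.core g c.Th (tt c _) (tt_apply _) hf (fun _ => c.Th f) (fun L a hL => by
    rw [Ctx.Th, g.coe _ _ _ _ one_pos hL, g.th _ _ _ _ _ one_pos hL hf,
      c.Q.U_vac _ _ _ one_pos hL, Ctx.Th]) fun _ _ _ => hasDerivAt_const _ _
  rwa [sub_zero] at this

theorem pot {f : Fn} (hf : GF.IsTest f) : Gn W (c.l f) (I • c.l (vf X f)) := by
  have := K.core g c.l (ll c) (fun _ => rfl) hf (fun _ => c.l f) (fun L a hL => by
    simpa using g.pot 1 L a f one_pos hL hf) fun _ _ _ => hasDerivAt_const _ _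
  rwa [sub_zero] at this

end Fl

end Gen

end Vale.Agent.P352X
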